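import Mathlib

/-!
The change of the quadratic field: the part with elements of the big field.
-/

namespace Vale.Agent.P011.D4X.H67

variable {k O : Type} [Field k] [Field O] [Algebra k O] {ρ σ τ : O ≃ₐ[k] O}

/-- The norm for the automorphism `ρ` of order three. -/
def N3 (ρ : O ≃ₐ[k] O) (x : O) : O := x * ρ x * ρ (ρ x)

theorem N3_mul (x y : O) : N3 ρ (x * y) = N3 ρ x * N3 ρ y := by
  simp only [N3, map_mul]
  ring

theorem N3_inv (x : O) : N3 ρ x⁻¹ = (N3 ρ x)⁻¹ := by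
  simp only [N3, map_inv₀, mul_inv]

theorem N3_ne {x : O} (hx : x ≠ 0) : N3 ρ x ≠ 0 :=
  mul_ne_zero (mul_ne_zero hx ((map_ne_zero ρ).mpr hx))
    ((map_ne_zero ρ).mpr ((map_ne_zero ρ).mpr hx))

theorem rho_N3 (h3 : ∀ x, ρ (ρ (ρ x)) = x) (x : O) : ρ (N3 ρ x) = N3 ρ x := by
  simp only [N3, map_mul, h3]
  ring

theorem map_N3 {s : O ≃ₐ[k] O} (hs : ∀ x, s (ρ x) = ρ (s x)) (x : O) :
    s (N3 ρ x) = N3 ρ (s x) := by
  simp only [N3, map_mul, hs]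

theorem N3_fix {x : O} (hx : ρ x = x) : N3 ρ x = x ^ 3 := by
  simp only [N3, hx]
  ring

/-- Hilbert 90 for an involution, in explicit form. -/
theorem h90 {s : O ≃ₐ[k] O} (hs : ∀ x, s (s x) = x) {α : O} (h2 : (2 : O) ≠ 0) (hα : s α = -α)
    (hα0 : α ≠ 0) {r : O} (hr : r * s r = 1) :
    ∃ x : O, (x = 1 ∨ x = α) ∧ x + r * s x ≠ 0 ∧ r * s (x + r * s x) = x + r * s x := by
  have key : ∀ x : O, r * s (x + r * s x) = x + r * s x := by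
    intro x
    rw [map_add, map_mul, hs, mul_add, ← mul_assoc, hr, one_mul, add_comm]
  by_cases h : 1 + r = 0
  · refine ⟨α, Or.inr rfl, ?_, key _⟩
    rw [hα, eq_neg_of_add_eq_zero_right h]
    intro h0
    apply mul_ne_zero h2 hα0
    linear_combination h0
  · exact ⟨1, Or.inl rfl, by rw [map_one, mul_one]; exact h, key _⟩

/-- The elements `v` and `s` of the change of field. -/
theorem exists_vs (h3 : ∀ x, ρ (ρ (ρ x)) = x) (hσ : ∀ x, σ (σ x) = x) (hτ : ∀ x, τ (τ x) = x)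
    (hσρ : ∀ x, σ (ρ x) = ρ (σ x)) (hτρ : ∀ x, τ (ρ x) = ρ (τ x)) (hστ : ∀ x, σ (τ x) = τ (σ x))
    (h2 : (2 : O) ≠ 0) {α : O} (hα0 : α ≠ 0) (hσα : σ α = -α) (hρα : ρ α = α)
    {q lam : O} (hq : N3 ρ q = 1) (hτq : τ q = q) (hlam : lam * σ lam = q) :
    ∃ v s : O, v ≠ 0 ∧ s ≠ 0 ∧ τ lam * σ v = lam * v ∧ N3 ρ (v * τ v) = 1 ∧ σ (v * τ v) = v * τ v ∧
      ρ s = s ∧ σ s = N3 ρ lam * s ∧ τ s * N3 ρ v = s := by
  have hq0 : q ≠ 0 := by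
    rintro rfl
    simp [N3] at hq
  have hl0 : lam ≠ 0 := by
    rintro rfl
    exact hq0 (by rw [← hlam, zero_mul])
  have hτl0 : τ lam ≠ 0 := (map_ne_zero τ).mpr hl0
  have hσl0 : σ lam ≠ 0 := (map_ne_zero σ).mpr hl0
  -- the element `v0`
  obtain ⟨r, hr⟩ : ∃ r, r = τ lam * lam⁻¹ := ⟨_, rfl⟩
  have hr0 : r ≠ 0 := by
    rw [hr]
    exact mul_ne_zero hτl0 (inv_ne_zero hl0)
  have hrr : r * σ r = 1 := by
    have h1 : τ lam * σ (τ lam) = q := by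
      rw [hστ, ← map_mul, hlam, hτq]
    rw [hr, map_mul, map_inv₀]
    field_simp
    rw [h1, hlam]
  have hrτ : r * τ r = 1 := by
    rw [hr, map_mul, map_inv₀, hτ]
    field_simp
  obtain ⟨x, -, hv0, hv⟩ := h90 hσ h2 hσα hα0 hrr
  obtain ⟨v0, hv0d⟩ : ∃ v0, v0 = x + r * σ x := ⟨_, rfl⟩
  rw [← hv0d] at hv0 hv
  -- `r * σ v0 = v0`
  have hw : σ (v0 * τ v0) = v0 * τ v0 := by
    have e1 : τ r * σ (τ v0) = τ v0 := by
      rw [hστ, ← map_mul, hv]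
    calc σ (v0 * τ v0) = (r * τ r) * (σ v0 * σ (τ v0)) := by rw [hrτ, one_mul, map_mul]
      _ = (r * σ v0) * (τ r * σ (τ v0)) := by ring
      _ = v0 * τ v0 := by rw [hv, e1]
  -- the element `β`
  obtain ⟨Λ, hΛ⟩ : ∃ Λ, Λ = N3 ρ lam := ⟨_, rfl⟩
  have hΛ0 : Λ ≠ 0 := by
    rw [hΛ]
    exact N3_ne hl0
  have hρΛ : ρ Λ = Λ := by
    rw [hΛ]
    exact rho_N3 h3 _
  have hΛΛ : Λ * σ Λ = 1 := by
    rw [hΛ, map_N3 hσρ, ← N3_mul, hlam, hq]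
  obtain ⟨y, hy, hβ0, hβ⟩ := h90 hσ h2 hσα hα0 hΛΛ
  obtain ⟨β, hβd⟩ : ∃ β, β = y + Λ * σ y := ⟨_, rfl⟩
  rw [← hβd] at hβ0 hβ
  have hρy : ρ y = y := by
    rcases hy with rfl | rfl
    · exact map_one ρ
    · exact hρα
  have hρβ : ρ β = β := by
    rw [hβd, map_add, map_mul, hρΛ, ← hσρ, hρy]
  -- the element `κ`
  obtain ⟨V, hV⟩ : ∃ V, V = N3 ρ v0 := ⟨_, rfl⟩
  have hV0 : V ≠ 0 := by
    rw [hV]
    exact N3_ne hv0
  have hρV : ρ V = V := by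
    rw [hV]
    exact rho_N3 h3 _
  have hτβ0 : τ β ≠ 0 := (map_ne_zero τ).mpr hβ0
  have hτV0 : τ V ≠ 0 := (map_ne_zero τ).mpr hV0
  have hτΛ0 : τ Λ ≠ 0 := (map_ne_zero τ).mpr hΛ0
  have e0 : τ lam * σ v0 = lam * v0 := by
    have h := hv
    rw [hr] at h
    field_simp at h
    linear_combination h
  -- `τ Λ * σ V = Λ * V`
  have hσV : τ Λ * σ V = Λ * V := by
    rw [hV, hΛ, map_N3 hσρ, map_N3 hτρ, ← N3_mul, ← N3_mul, e0]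
  have hσβ : σ β = β * Λ⁻¹ := by
    rw [eq_mul_inv_iff_mul_eq₀ hΛ0, mul_comm]
    exact hβ
  have hστβ : σ (τ β) = τ β * (τ Λ)⁻¹ := by
    rw [hστ, hσβ, map_mul, map_inv₀]
  have hσV' : σ V = Λ * V * (τ Λ)⁻¹ := by
    rw [← hσV]
    field_simp
  obtain ⟨κ, hκ⟩ : ∃ κ, κ = V * β * (τ β)⁻¹ := ⟨_, rfl⟩
  have hκ0 : κ ≠ 0 := by
    rw [hκ]
    exact mul_ne_zero (mul_ne_zero hV0 hβ0) (inv_ne_zero hτβ0)
  have hτκ0 : τ κ ≠ 0 := (map_ne_zero τ).mpr hκ0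
  have hσκ : σ κ = κ := by
    rw [hκ, map_mul, map_mul, map_inv₀, hσβ, hστβ, hσV']
    field_simp
  have hρκ : ρ κ = κ := by
    rw [hκ, map_mul, map_mul, map_inv₀, hρβ, hρV, ← hτρ, hρβ]
  have hκκ : κ * τ κ = V * τ V := by
    rw [hκ, map_mul, map_mul, map_inv₀, hτ]
    field_simp
  -- the element `v`
  obtain ⟨w, hwd⟩ : ∃ w, w = v0 * τ v0 := ⟨_, rfl⟩
  rw [← hwd] at hw
  have hτv0 : τ v0 ≠ 0 := (map_ne_zero τ).mpr hv0
  have hw0 : w ≠ 0 := by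
    rw [hwd]
    exact mul_ne_zero hv0 hτv0
  have hτw : τ w = w := by
    rw [hwd, map_mul, hτ, mul_comm]
  have hNw : N3 ρ w = κ * τ κ := by
    rw [hκκ, hwd, N3_mul, hV, map_N3 hτρ]
  obtain ⟨v, hvd⟩ : ∃ v, v = v0 * κ * (w ^ 2)⁻¹ := ⟨_, rfl⟩
  have hv00 : v ≠ 0 := by
    rw [hvd]
    exact mul_ne_zero (mul_ne_zero hv0 hκ0) (inv_ne_zero (pow_ne_zero _ hw0))
  have hNv : N3 ρ v = V * κ ^ 3 * ((κ * τ κ) ^ 2)⁻¹ := by
    rw [hvd, N3_mul, N3_mul, N3_inv, sq, N3_mul, hNw, N3_fix hρκ, ← hV, sq]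
  refine ⟨v, κ ^ 2 * β⁻¹, hv00, mul_ne_zero (pow_ne_zero _ hκ0) (inv_ne_zero hβ0), ?_, ?_, ?_, ?_,
    ?_, ?_⟩
  · rw [hvd, map_mul, map_mul, map_inv₀, map_pow, hw, hσκ]
    linear_combination κ * (w ^ 2)⁻¹ * e0
  · rw [N3_mul, ← map_N3 hτρ, hNv, map_mul, map_mul, map_inv₀, map_pow, map_pow, map_mul, hτ]
    have h5 : V * τ V = κ * τ κ := hκκ.symm
    have h6 : V * κ ^ 3 * ((κ * τ κ) ^ 2)⁻¹ * (τ V * τ κ ^ 3 * ((τ κ * κ) ^ 2)⁻¹) =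
        (V * τ V) * (κ * τ κ) ^ 3 * ((κ * τ κ) ^ 4)⁻¹ := by
      field_simp
    rw [h6, h5]
    field_simp
  · have h5 : v * τ v = (κ * τ κ) * w * (w ^ 4)⁻¹ := by
      rw [hvd, map_mul, map_mul, map_inv₀, map_pow, hτw]
      field_simp
      rw [hwd]
    have h6 : σ (τ κ) = τ κ := by rw [hστ, hσκ]
    rw [h5, map_mul, map_mul, map_mul, map_inv₀, map_pow, hw, hσκ, h6]
  · rw [map_mul, map_inv₀, map_pow, hρκ, hρβ]
  · rw [map_mul, map_inv₀, map_pow, hσκ, hσβ, ← hΛ]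
    field_simp
  · rw [map_mul, map_inv₀, map_pow, hNv]
    have h5 : V * β = κ * τ β := by
      rw [hκ]
      field_simp
    field_simp
    linear_combination h5

end Vale.Agent.P011.D4X.H67
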